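import Claimed.Agent.R291.Exit.LimMom

/-!
# Row 291 (S0539), Hub : THE TOP OF THE PROOF TREE      (owner helper115, chief architect; prefix `hub_`)

`S0539  ⇐  hub_top  ⇐  exit_lim_mom (unit LIM)  +  tmm_top (unit TOP, proved)`.
The DAG of the exits, the order-of-limits protocol and the owners: `notes/R291/HUB_115.md` on origin/helper115.
-/

set_option autoImplicit false

namespace Claimed.Agent.R291

open MeasureTheory ProbabilityTheory Filter Topology BoundedContinuousFunction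
open Claims Claims.C0467

/-- scaling of the Wick numbers -/
theorem hub_wick_scale (a c : ℝ) : ∀ k : ℕ, tmmWick (a ^ 2 * c) k = a ^ k * tmmWick c k
  | 0 => by simp [tmm_wick_zero]
  | 1 => by simp [tmm_wick_one]
  | (k + 2) => by
    rw [tmm_wick_succ, tmm_wick_succ, hub_wick_scale a c k]
    ring

/-- scaling of the frozen expectation of a power -/
theorem hub_lip_scale (x δ σ : ℝ) (F : Finset (ℤ × ℤ)) (f : ℝ × ℝ → ℝ) (k : ℕ) :
    lipschitzExpect x δ σ F f (fun t => t ^ k) = (σ⁻¹) ^ k * lipschitzExpect x δ 1 F f (fun t => t ^ k) := by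
  unfold lipschitzExpect
  rw [← mul_div_assoc, Finset.mul_sum]
  congr 1
  refine Finset.sum_congr rfl fun h _ => ?_
  simp only [div_eq_mul_inv, mul_pow]
  ring

/-- **the frozen statement from the moment contract** -/
theorem hub_top (x : ℝ) (hx1 : 1 / Real.sqrt 2 ≤ x) (hx2 : x ≤ 1) :
    ∃ σ : ℝ, 0 < σ ∧
      ∀ (D : Set (ℝ × ℝ)), IsC2JordanDomain D →
      ∀ (δ : ℕ → ℝ) (F : ℕ → Finset (ℤ × ℤ)), IsInsideApprox D δ F →
      ∀ f : ℝ × ℝ → ℝ, ContDiff ℝ ((⊤ : ℕ∞) : WithTop ℕ∞) f → HasCompactSupport f →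
        tsupport f ⊆ D →
      ∀ u : ℝ × ℝ → ℝ, ContDiffOn ℝ 2 u D → ContinuousOn u (closure D) →
        (∀ z ∈ frontier D, u z = 0) → (∀ z ∈ D, -lap2 u z = f z) →
      ∀ φ : ℝ →ᵇ ℝ,
        Tendsto (fun n => lipschitzExpect x (δ n) σ (F n) f φ) atTop
          (𝓝 (∫ t, φ t ∂gaussianReal 0 (∫ z in D, f z * u z).toNNReal)) := by
  obtain ⟨v, hv, H⟩ := exit_lim_mom x hx1 hx2
  have hx : 0 < x := lt_of_lt_of_le (by positivity) hx1
  have hs : 0 < Real.sqrt v := Real.sqrt_pos.2 hv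
  refine ⟨Real.sqrt v, hs, fun D hD δ F hF f hf1 hf2 hf3 u hu1 hu2 hu3 hu4 φ => ?_⟩
  refine tmm_top hx _ δ F f _ (fun k => ?_) φ
  have h := (H D hD δ F hF f hf1 hf2 hf3 u hu1 hu2 hu3 hu4 k).const_mul (((Real.sqrt v)⁻¹) ^ k)
  have e : ((Real.sqrt v)⁻¹) ^ k * tmmWick (v * ∫ z in D, f z * u z) k = tmmWick (∫ z in D, f z * u z) k := by
    have e1 : v * ∫ z in D, f z * u z = (Real.sqrt v) ^ 2 * ∫ z in D, f z * u z := by rw [Real.sq_sqrt hv.le]
    rw [e1, hub_wick_scale, ← mul_assoc, ← mul_pow, inv_mul_cancel₀ hs.ne', one_pow, one_mul]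
  rw [e] at h
  refine h.congr fun n => ?_
  rw [hub_lip_scale x (δ n) (Real.sqrt v)]

end Claimed.Agent.R291
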